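import Mathlib

/-!
# P261: crossed homomorphisms with values in a domain of characteristic `p` from a simple pole

`R` is a domain of characteristic `p` with an action of a group `G` by ring homomorphisms `a g`,
`u ≠ 0` and `a g u = u (1 + u d)` with `1 + u d` a unit.  Then `c g = a g (1/u) - 1/u` lies in `R`,
`c ^ (p ^ s)` is a crossed homomorphism for every `s`, and if two of these are cohomologous in `R`,
there is a non-constant invariant fraction.
-/

namespace Vale.Agent.P261.R2.H823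

variable {R G : Type*} [CommRing R] [IsDomain R] [Group G] (a : G → R →+* R) (u : R)

/-- `c g = 1 / a g u - 1 / u`. -/
theorem exists_c (hu : ∀ g, ∃ d, a g u = u * (1 + u * d) ∧ IsUnit (1 + u * d)) :
    ∃ c : G → R, ∀ g, u * a g u * c g = u - a g u := by
  have h : ∀ g, ∃ x, u * a g u * x = u - a g u := by
    intro g
    obtain ⟨d, h1, v, h2⟩ := hu g
    refine ⟨-(d * (↑v⁻¹ : R)), ?_⟩
    rw [h1, ← h2]
    have h3 : (v : R) * (↑v⁻¹ : R) = 1 := v.mul_inv
    calc u * (u * (v : R)) * -(d * (↑v⁻¹ : R)) = -(u * u * d * ((v : R) * (↑v⁻¹ : R))) := by ring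
      _ = -(u * u * d) := by rw [h3, mul_one]
      _ = u - u * (v : R) := by rw [h2]; ring
  choose c hc using h
  exact ⟨c, hc⟩

variable {a u}

theorem cocycle (hu0 : u ≠ 0) (hinj : ∀ g, a g u ≠ 0)
    (hmul : ∀ g h x, a (g * h) x = a g (a h x)) {c : G → R}
    (hc : ∀ g, u * a g u * c g = u - a g u) (g h : G) : c (g * h) = c g + a g (c h) := by
  have h1 := hc g
  have h2 := congrArg (a g) (hc h)
  have h3 := hc (g * h)
  simp only [map_mul, map_sub] at h2
  rw [← hmul] at h2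
  have h4 : u * a g u * a (g * h) u ≠ 0 :=
    mul_ne_zero (mul_ne_zero hu0 (hinj g)) (hinj (g * h))
  refine mul_left_cancel₀ h4 ?_
  linear_combination (a g u) * h3 - (a (g * h) u) * h1 - u * h2

theorem cocycle_pow (p : ℕ) [Fact p.Prime] [CharP R p] {c : G → R}
    (hc : ∀ g h, c (g * h) = c g + a g (c h)) (s : ℕ) (g h : G) :
    c (g * h) ^ p ^ s = c g ^ p ^ s + a g (c h ^ p ^ s) := by
  rw [hc, add_pow_char_pow, map_pow]

theorem fraction (p : ℕ) [Fact p.Prime] [CharP R p] {c : G → R}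
    (hc : ∀ g, u * a g u * c g = u - a g u) {s t : ℕ} (hst : s ≤ t) {m : R}
    (hm : ∀ g, c g ^ p ^ s - c g ^ p ^ t = a g m - m) (g : G) :
    a g (u ^ (p ^ t - p ^ s) - 1 - m * u ^ p ^ t) * u ^ p ^ t -
      (u ^ (p ^ t - p ^ s) - 1 - m * u ^ p ^ t) * a g (u ^ p ^ t) = 0 := by
  have hle : p ^ s ≤ p ^ t := Nat.pow_le_pow_right (Fact.out : p.Prime).pos hst
  obtain ⟨k, hk⟩ := Nat.exists_eq_add_of_le hle
  have hk' : p ^ t - p ^ s = k := by omega
  have h1 : (u ^ p ^ s) * (a g u ^ p ^ s) * c g ^ p ^ s = u ^ p ^ s - a g u ^ p ^ s := by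
    rw [← mul_pow, ← mul_pow, hc g, sub_pow_char_pow]
  have h2 : (u ^ p ^ t) * (a g u ^ p ^ t) * c g ^ p ^ t = u ^ p ^ t - a g u ^ p ^ t := by
    rw [← mul_pow, ← mul_pow, hc g, sub_pow_char_pow]
  have h3 := hm g
  rw [hk']
  simp only [map_sub, map_mul, map_pow, map_one]
  have e1 : u ^ p ^ t = u ^ p ^ s * u ^ k := by rw [← pow_add, ← hk]
  have e2 : a g u ^ p ^ t = a g u ^ p ^ s * a g u ^ k := by rw [← pow_add, ← hk]
  rw [e1, e2] at h2 ⊢
  linear_combination (-(u ^ k * a g u ^ k)) * h1 + h2 +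
    (u ^ p ^ s * u ^ k * (a g u ^ p ^ s * a g u ^ k)) * h3

end Vale.Agent.P261.R2.H823
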