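import Mathlib

/-!
# P261: crossed homomorphisms of a group from those of a subgroup (Shapiro)

`G` acts on the ring `R` by ring homomorphisms and on the functions `G ⧸ N → R`, and a crossed
homomorphism `c : N → R` gives the crossed homomorphism `coind a N c : G → (G ⧸ N → R)`.
-/

namespace Vale.Agent.P261.R2.H823

variable {R G : Type*} [CommRing R] [Group G] (a : G →* (R →+* R)) (N : Subgroup G)

theorem mem_aux (g : G) (x : G ⧸ N) :
    (Quotient.out x)⁻¹ * g * Quotient.out (g⁻¹ • x) ∈ N := by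
  rw [mul_assoc, ← QuotientGroup.eq, QuotientGroup.out_eq']
  have h1 : ((g * Quotient.out (g⁻¹ • x) : G) : G ⧸ N) = g • (g⁻¹ • x) := by
    rw [← smul_eq_mul, MulAction.Quotient.coe_smul_out]
  rw [h1, smul_inv_smul]

/-- the action on the functions. -/
def rhoC (g : G) (f : G ⧸ N → R) : G ⧸ N → R := fun x => a g (f (g⁻¹ • x))

/-- the coinduced crossed homomorphism. -/
noncomputable def coind (c : N → R) (g : G) : G ⧸ N → R :=
  fun x => a (Quotient.out x) (c ⟨_, mem_aux N g x⟩)

theorem act_mul (g h : G) (r : R) : a (g * h) r = a g (a h r) := by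
  rw [map_mul]
  rfl

theorem act_one (r : R) : a 1 r = r := by
  rw [map_one]
  rfl

theorem coind_mul {c : N → R} (hc : ∀ g h : N, c (g * h) = c g + a (g : G) (c h)) (g g' : G) :
    coind a N c (g * g') = coind a N c g + rhoC a N g (coind a N c g') := by
  funext x
  have hz : (g * g')⁻¹ • x = g'⁻¹ • g⁻¹ • x := by rw [mul_inv_rev, mul_smul]
  have h1 : (⟨_, mem_aux N (g * g') x⟩ : N) =
      ⟨_, mem_aux N g x⟩ * ⟨_, mem_aux N g' (g⁻¹ • x)⟩ := by
    apply Subtype.ext
    simp only [Subgroup.coe_mul]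
    rw [hz]
    group
  simp only [coind, rhoC, Pi.add_apply]
  rw [h1, hc, map_add, ← act_mul, ← act_mul]
  congr 3
  simp only
  group

theorem coind_base {c d : N → R} {m : G ⧸ N → R}
    (hm : ∀ g : G, coind a N c g - coind a N d g = rhoC a N g m - m) :
    ∃ m₁ : R, ∀ g : N, c g - d g = a (g : G) m₁ - m₁ := by
  set x : G ⧸ N := ((1 : G) : G ⧸ N) with hx
  set e : G := Quotient.out x with he
  have heN : e ∈ N := by
    have h1 : ((e : G) : G ⧸ N) = ((1 : G) : G ⧸ N) := QuotientGroup.out_eq' x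
    rw [QuotientGroup.eq, mul_one] at h1
    exact (Subgroup.inv_mem_iff N).1 h1
  refine ⟨a e⁻¹ (m x), fun g => ?_⟩
  have hgN : e * (g : G) * e⁻¹ ∈ N := N.mul_mem (N.mul_mem heN g.2) (N.inv_mem heN)
  have hgx : (e * (g : G) * e⁻¹)⁻¹ • x = x := by
    rw [hx, MulAction.Quotient.smul_mk, smul_eq_mul, QuotientGroup.eq, mul_one, mul_one, inv_inv]
    exact hgN
  have h2 := congrFun (hm (e * (g : G) * e⁻¹)) x
  simp only [coind, rhoC, Pi.sub_apply] at h2
  have h3 : (⟨_, mem_aux N (e * (g : G) * e⁻¹) x⟩ : N) = g := by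
    apply Subtype.ext
    change (Quotient.out x)⁻¹ * (e * (g : G) * e⁻¹) * Quotient.out ((e * (g : G) * e⁻¹)⁻¹ • x) = g
    rw [hgx, ← he]
    group
  rw [h3, hgx, ← map_sub, ← he] at h2
  have h4 := congrArg (a e⁻¹) h2
  rw [map_sub (a e⁻¹), ← act_mul, ← act_mul, inv_mul_cancel, act_one, ← mul_assoc, ← mul_assoc,
    inv_mul_cancel, one_mul, act_mul] at h4
  exact h4

end Vale.Agent.P261.R2.H823
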