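import Mathlib

/-!
# P261: the bookkeeping of the dévissage, sharp form
-/

namespace Vale.Agent.P261.R2.H823

open Finset

/-- From the level `0` to the level `h`: the step at the level `l` either keeps the degree, or
raises it by one and shifts `k` by `p ^ l - 1`. -/
theorem windowT {n p : ℕ} (P : ℕ → ℕ → ℤ → Prop)
    (step : ∀ h j k, h + 1 < n → P h j k → P h (j + 1) (k - ((p : ℤ) ^ h - 1)) → P (h + 1) j k)
    (h : ℕ) (hh : h < n) : ∀ (j : ℕ) (k : ℤ),
      (∀ T ⊆ range h, P 0 (j + T.card) (k - ∑ l ∈ T, ((p : ℤ) ^ l - 1))) → P h j k := by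
  induction h with
  | zero =>
    intro j k hT
    simpa using hT ∅ (by simp)
  | succ h ih =>
    intro j k hT
    refine step h j k (by omega) (ih (by omega) j k fun T hTs => hT T ?_)
      (ih (by omega) (j + 1) _ fun T hTs => ?_)
    · exact hTs.trans (range_subset_range.2 (Nat.le_succ h))
    · have hnot : h ∉ T := fun hm => by
        have := hTs hm
        simp at this
      have h1 := hT (insert h T) (by
        intro l hl
        rcases mem_insert.1 hl with rfl | hl
        · simp
        · have := mem_range.1 (hTs hl)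
          exact mem_range.2 (by omega))
      rw [card_insert_of_notMem hnot, sum_insert hnot] at h1
      have e1 : j + 1 + T.card = j + (T.card + 1) := by ring
      have e2 : k - ((p : ℤ) ^ h - 1) - ∑ l ∈ T, ((p : ℤ) ^ l - 1) =
          k - ((p : ℤ) ^ h - 1 + ∑ l ∈ T, ((p : ℤ) ^ l - 1)) := by ring
      rw [e1, e2]
      exact h1

end Vale.Agent.P261.R2.H823
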